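import Vale.Agent.P225.Regularity.Decay

/-!
# P225, smoothness in time of the mode coefficients

The equation gains one derivative and loses a power of the degree.
-/

open scoped ContDiff Topology RealInnerProductSpace
open Finset Filter Set

namespace Vale.Agent.P225

open Regularity

noncomputable section

/-- Solutions with geometric decay in the degree which are regular before time zero. -/
structure Tame (H : Harm) (u du : (j : ℕ) → ℝ → V j) (W : ℝ) (M : ℝ → ℝ) : Prop where
  C_lt : H.C < W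
  cont : Continuous M
  bound : ∀ j t, W ^ j * (‖u j t‖ + ‖du j t‖) ≤ M t
  start : ∀ j, ∀ t ≤ 0, u j t = Real.exp (j * t) • u j 0

theorem Tame.one_lt {H : Harm} {u du : (j : ℕ) → ℝ → V j} {W : ℝ} {M : ℝ → ℝ}
    (hT : Tame H u du W M) : 1 < W :=
  H.one_le_C.trans_lt hT.C_lt

namespace Harm

variable (H : Harm)

theorem norm_EL_le (j : ℕ) (k : Fin 3) : ‖H.EL j k‖ ≤ (j : ℝ) + 1 := by
  refine ContinuousLinearMap.opNorm_le_bound _ (by positivity) fun v => ?_
  have hterm : ∀ l, ⟪H.EL j l v, H.EL j l v⟫ = -⟪v, H.EL j l (H.EL j l v)⟫ := fun l =>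
    H.skew_left j l v _
  have hsum : ∑ l, ⟪H.EL j l v, H.EL j l v⟫ = (j : ℝ) * (j + 2) * ⟪v, v⟫ := by
    simp only [hterm, sum_neg_distrib, ← inner_sum, H.casimir_left, inner_smul_right]
    ring
  have hle : ⟪H.EL j k v, H.EL j k v⟫ ≤ ∑ l, ⟪H.EL j l v, H.EL j l v⟫ :=
    single_le_sum (f := fun l => ⟪H.EL j l v, H.EL j l v⟫)
      (fun l _ => real_inner_self_nonneg) (Finset.mem_univ k)
  rw [hsum, real_inner_self_eq_norm_sq, real_inner_self_eq_norm_sq] at hle
  refine pow_le_pow_iff_left₀ (norm_nonneg _) (by positivity) two_ne_zero |>.mp ?_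
  nlinarith [sq_nonneg ‖v‖]

theorem norm_ER_le (j : ℕ) (k : Fin 3) : ‖H.ER j k‖ ≤ (j : ℝ) + 1 := by
  refine ContinuousLinearMap.opNorm_le_bound _ (by positivity) fun v => ?_
  have hterm : ∀ l, ⟪H.ER j l v, H.ER j l v⟫ = -⟪v, H.ER j l (H.ER j l v)⟫ := fun l =>
    H.skew_right j l v _
  have hsum : ∑ l, ⟪H.ER j l v, H.ER j l v⟫ = (j : ℝ) * (j + 2) * ⟪v, v⟫ := by
    simp only [hterm, sum_neg_distrib, ← inner_sum, H.casimir_right, inner_smul_right]
    ring
  have hle : ⟪H.ER j k v, H.ER j k v⟫ ≤ ∑ l, ⟪H.ER j l v, H.ER j l v⟫ :=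
    single_le_sum (f := fun l => ⟪H.ER j l v, H.ER j l v⟫)
      (fun l _ => real_inner_self_nonneg) (Finset.mem_univ k)
  rw [hsum, real_inner_self_eq_norm_sq, real_inner_self_eq_norm_sq] at hle
  refine pow_le_pow_iff_left₀ (norm_nonneg _) (by positivity) two_ne_zero |>.mp ?_
  nlinarith [sq_nonneg ‖v‖]

theorem norm_elAxis_le (j : ℕ) (a : Fin 6) :
    ‖Shape.elAxis H j a‖ ≤ (∑ k, |axisVec a k|) * ((j : ℝ) + 1) := by
  rw [Shape.elAxis, Finset.sum_mul]
  refine (norm_sum_le _ _).trans (sum_le_sum fun k _ => ?_)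
  rw [norm_smul, Real.norm_eq_abs]
  exact mul_le_mul_of_nonneg_left (H.norm_EL_le j k) (abs_nonneg _)

end Harm

variable {H : Harm} {sh : Shape} {P : Pulses} {A : Amps P} {u du : (j : ℕ) → ℝ → V j}
  {W : ℝ} {M : ℝ → ℝ}

section Closure

variable {n : ℕ} {F G : (j : ℕ) → ℝ → V j}

theorem decay_lam (hW : 0 < W) (sh : Shape) (hF : Decay W n F) :
    Decay W n (fun j t => sh.lam H j t (F j t)) := by
  have hχ : ContDiff ℝ (n : WithTop ℕ∞) sh.χ := contDiff_infty.mp sh.smooth_χ n
  have hβ : ContDiff ℝ (n : WithTop ℕ∞) sh.β := contDiff_infty.mp sh.smooth_β n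
  have hγ : ∀ a, ContDiff ℝ (n : WithTop ℕ∞) (sh.γ a) := fun a =>
    contDiff_infty.mp (sh.smooth_γ a) n
  have hI : ∀ j : ℕ, ‖((j : ℝ) * (j + 2)) • ContinuousLinearMap.id ℝ (V j)‖ ≤
      1 * ((j : ℝ) + 1) ^ 2 := by
    intro j
    rw [norm_smul, Real.norm_of_nonneg (by positivity)]
    refine (mul_le_of_le_one_right (by positivity) ContinuousLinearMap.norm_id_le).trans ?_
    nlinarith
  have hR : ∀ j : ℕ, ‖(H.ER j 0).comp (H.ER j 0)‖ ≤ 1 * ((j : ℝ) + 1) ^ 2 := fun j =>
    (ContinuousLinearMap.opNorm_comp_le _ _).trans ((mul_le_mul (H.norm_ER_le j 0)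
      (H.norm_ER_le j 0) (norm_nonneg _) (by positivity)).trans_eq (by ring))
  have hA : ∀ a, ∀ j : ℕ, ‖(Shape.elAxis H j a).comp (Shape.elAxis H j a)‖ ≤
      (∑ k, |axisVec a k|) ^ 2 * ((j : ℝ) + 1) ^ 2 := fun a j =>
    (ContinuousLinearMap.opNorm_comp_le _ _).trans ((mul_le_mul (H.norm_elAxis_le j a)
      (H.norm_elAxis_le j a) (norm_nonneg _) (by positivity)).trans_eq (by ring))
  have h1 := hF.op hW (fun j => ((j : ℝ) * (j + 2)) • ContinuousLinearMap.id ℝ (V j)) hI
  have h2 := hF.op hW (fun j => (H.ER j 0).comp (H.ER j 0)) hR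
  have h3 := fun a => hF.op hW (fun j => (Shape.elAxis H j a).comp (Shape.elAxis H j a)) (hA a)
  have hm1 : ContDiff ℝ (n : WithTop ℕ∞) fun _ : ℝ => (-1 : ℝ) := contDiff_const
  have key := (h1.add hW (((h1.add hW h2).smul hW
      (c := fun t => Real.exp (2 * sh.β t) - 1) (by fun_prop)).add hW
    (((h2.smul hW hm1).smul hW (c := fun t => Real.exp (-4 * sh.β t) - 1) (by fun_prop)).add hW
    (decay_sum hW Finset.univ _ fun a _ => ((h1.add hW (h3 a)).smul hW
      (c := fun t => Real.exp (2 * sh.γ a t) - 1)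
        (by have := hγ a; fun_prop)).add hW
      (((h3 a).smul hW hm1).smul hW (c := fun t => Real.exp (-4 * sh.γ a t) - 1)
        (by have := hγ a; fun_prop)))))).smul hW (c := fun t => Real.exp (2 * sh.χ t))
      (by fun_prop)
  convert key using 3 with j t
  simp only [Shape.lam, smul_add, add_assoc, add_apply,
    smul_apply, _root_.sum_apply, neg_apply,
    neg_smul, one_smul, smul_neg, Finset.smul_sum, sum_add_distrib, sum_neg_distrib]

theorem decay_pulse (hW : 1 ≤ W) (p : Pulse) (sh : Shape) (c : ℝ)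
    (hF : Decay W n F) (hG : Decay W n G) :
    Decay W n (fun j' t => ∑ j ∈ range (j' + p.deg + 1),
      p.force H (sh.drift t) (t - c) j j' (F j t) (G j t)) := by
  have hW0 : 0 < W := zero_lt_one.trans_le hW
  have hχ : ContDiff ℝ ∞ sh.χ := sh.smooth_χ
  have hd : ContDiff ℝ (n : WithTop ℕ∞) sh.drift := by
    have h : ContDiff ℝ (n : WithTop ℕ∞) (deriv sh.χ) :=
      contDiff_infty.mp (contDiff_infty_iff_deriv.mp hχ).2 n
    unfold Shape.drift
    fun_prop
  have hp : ContDiff ℝ (n : WithTop ℕ∞) fun t => p.prof (t - c) := by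
    have := contDiff_infty.mp p.smooth n; fun_prop
  have hp' : ContDiff ℝ (n : WithTop ℕ∞) fun t => deriv p.prof (t - c) := by
    have := contDiff_infty.mp (contDiff_infty_iff_deriv.mp p.smooth).2 n; fun_prop
  have hzero : ∀ i j, j + p.deg < i ∨ i + p.deg < j → H.mul p.deg p.vec i j = 0 :=
    fun i j h => H.mul_band _ _ i j h
  have hmul : ∀ i j : ℕ, ‖H.mul p.deg p.vec i j‖ ≤ H.C ^ p.deg * ‖p.vec‖ * ((i : ℝ) + 1) ^ 0 :=
    fun i j => by rw [pow_zero, mul_one]; exact H.mul_norm _ _ i j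
  cases hk : p.kind with
  | some k =>
    have hE : ∀ i : ℕ, ‖H.EL i k‖ ≤ 1 * ((i : ℝ) + 1) ^ 1 := fun i => by
      simpa using H.norm_EL_le i k
    have a := (hF.op hW0 (fun i => H.EL i k) hE).band hW p.deg (H.mul p.deg p.vec) hzero hmul
    have b := (hG.op hW0 (fun i => H.EL i k) hE).band hW p.deg (H.mul p.deg p.vec) hzero hmul
    have e := (hG.band hW p.deg (H.mul p.deg p.vec) hzero hmul).op hW0 (fun i => H.EL i k) hE
    have key := ((a.smul hW0 (c := fun t => deriv p.prof (t - c) +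
      (2 + sh.drift t) * p.prof (t - c)) (by fun_prop)).add hW0 (b.smul hW0 hp)).add hW0
      (e.smul hW0 hp)
    convert key using 3 with j t
    simp only [Pulse.force, hk, sum_add_distrib, map_sum, Finset.smul_sum]
  | none =>
    have hE : ∀ k, ∀ i : ℕ, ‖H.EL i k‖ ≤ 1 * ((i : ℝ) + 1) ^ 1 := fun k i => by
      simpa using H.norm_EL_le i k
    have key := (decay_sum hW0 Finset.univ _ fun k _ =>
      ((hF.op hW0 (fun i => H.EL i k) (hE k)).band hW p.deg (H.mul p.deg p.vec) hzero hmul).op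
        hW0 (fun i => H.EL i k) (hE k)).smul hW0 hp
    convert key using 3 with j t
    simp only [Pulse.force, hk, map_sum, Finset.smul_sum]
    exact Finset.sum_comm

theorem Amps.le_pos (A : Amps P) (n : ℕ) : (n : ℝ) + 1 ≤ A.pos n := by
  induction n with
  | zero => simpa using A.pos_start
  | succ n ih => push_cast; linarith [A.pos_gap n]

theorem Pulse.force_of_neg (p : Pulse) (s : ℝ) {τ : ℝ} (hτ : τ < 0) (j j' : ℕ)
    (v w : V j) : p.force H s τ j j' v w = 0 := by
  have h0 : p.prof τ = 0 := p.supp τ (fun h => absurd h.1 (not_lt.mpr hτ.le))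
  have he : p.prof =ᶠ[𝓝 τ] fun _ => 0 :=
    eventually_of_mem (Iio_mem_nhds hτ) fun t ht =>
      p.supp t (fun h => absurd h.1 (not_lt.mpr (le_of_lt ht)))
  have h1 : deriv p.prof τ = 0 := by rw [he.deriv_eq, deriv_const]
  cases hk : p.kind <;> simp [Pulse.force, hk, h0, h1]

theorem decay_force (hW : 1 ≤ W) (hF : Decay W n F) (hG : Decay W n G) :
    Decay W n (fun j t => A.force H sh F G j t) := by
  have hW0 : 0 < W := zero_lt_one.trans_le hW
  refine decay_of_local fun a b => ?_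
  obtain ⟨N, hN⟩ := exists_nat_ge (b + 1)
  refine ⟨_, decay_sum hW0 (Finset.range N) _ fun m _ =>
    decay_sum hW0 Finset.univ _ fun l _ =>
      (decay_pulse (H := H) hW (P.item l) sh (A.pos m) hF hG).smul hW0
        (contDiff_const (c := A.θ m l)), fun j t ht => ?_⟩
  refine tsum_eq_sum fun m hm => ?_
  have hm' : (N : ℝ) ≤ m := by
    exact_mod_cast Nat.le_of_not_lt fun h => hm (Finset.mem_range.mpr h)
  have hneg : t - A.pos m < 0 := by linarith [ht.2, A.le_pos m]
  simp [Pulse.force_of_neg _ _ hneg]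

end Closure

/-- Every derivative of the coefficients decays geometrically in the degree. -/
theorem decay_coeff (hu : IsModeSolution H sh A u du) (hT : Tame H u du W M) (n : ℕ) :
    Decay W n u ∧ Decay W n du := by
  have hW := hT.one_lt.le
  have hW0 : 0 < W := zero_lt_one.trans hT.one_lt
  have base : ∀ f : (j : ℕ) → ℝ → V j, (∀ j, Continuous (f j)) →
      (∀ j t, ‖f j t‖ ≤ ‖u j t‖ + ‖du j t‖) → Decay W 0 f := by
    intro f hc hle
    refine ⟨fun j => contDiff_zero.mpr (hc j), fun a b => ?_⟩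
    obtain ⟨B, hB⟩ := (isCompact_Icc (a := a) (b := b)).bddAbove_image hT.cont.continuousOn
    refine ⟨max B 0, 0, le_max_right _ _, fun j k hk t ht => ?_⟩
    obtain rfl := Nat.le_zero.mp hk
    rw [norm_iteratedFDeriv_zero, pow_zero, mul_one, le_div_iff₀ (pow_pos hW0 j)]
    calc ‖f j t‖ * W ^ j ≤ W ^ j * (‖u j t‖ + ‖du j t‖) := by
          rw [mul_comm]; gcongr; exact hle j t
      _ ≤ M t := hT.bound j t
      _ ≤ max B 0 := (hB (Set.mem_image_of_mem _ ht)).trans (le_max_left _ _)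
  have hu0 : Decay W 0 u := base u
    (fun j => continuous_iff_continuousAt.mpr fun t => (hu.deriv_u j t).continuousAt)
    (fun j t => le_add_of_nonneg_right (norm_nonneg _))
  have hdu0 : Decay W 0 du := base du
    (fun j => continuous_iff_continuousAt.mpr fun t => (hu.deriv_du j t).continuousAt)
    (fun j t => le_add_of_nonneg_left (norm_nonneg _))
  induction n with
  | zero => exact ⟨hu0, hdu0⟩
  | succ n ih =>
    refine ⟨decay_succ hW0 hu.deriv_u hu0 ih.2,
      decay_succ hW0 hu.deriv_du hdu0 ?_⟩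
    have hd : ContDiff ℝ (n : WithTop ℕ∞) sh.drift := by
      have h : ContDiff ℝ (n : WithTop ℕ∞) (deriv sh.χ) :=
        contDiff_infty.mp (contDiff_infty_iff_deriv.mp sh.smooth_χ).2 n
      unfold Shape.drift
      fun_prop
    have key := ((ih.2.smul hW0 (c := fun t => -(2 + sh.drift t)) (by fun_prop)).add hW0
      (decay_lam (H := H) hW0 sh ih.1)).add hW0
      ((decay_force (H := H) (sh := sh) (A := A) hW ih.1 ih.2).smul hW0
        (contDiff_const (c := (-1 : ℝ))))
    convert key using 3 with j t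
    simp [sub_eq_add_neg]

/-- The coefficients are smooth. -/
theorem contDiff_coeff (hu : IsModeSolution H sh A u du) (hT : Tame H u du W M) (j : ℕ) :
    ContDiff ℝ ∞ (u j) :=
  contDiff_infty.mpr fun n => (decay_coeff hu hT n).1.1 j

end

end Vale.Agent.P225
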