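import Mathlib

/-!
# Series of smooth functions on open convex sets

Term by term differentiation of a series with summable uniform bounds on every derivative, on an
open preconnected set.
-/

open scoped ContDiff Topology
open Filter Set

namespace Vale.Agent.P225.Regularity

noncomputable section

variable {E F : Type*} [NormedAddCommGroup E] [NormedSpace ℝ E] [NormedAddCommGroup F]
  [NormedSpace ℝ F] [CompleteSpace F] {α : Type*} {f : α → E → F} {s : Set E} {v : ℕ → α → ℝ}

/-- The iterated derivative of the sum is the sum of the iterated derivatives. -/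
theorem hasFDerivAt_iterated_tsum (hs : IsOpen s) (hps : IsPreconnected s)
    (hf : ∀ i, ContDiffOn ℝ ∞ (f i) s) (hv : ∀ k, Summable (v k))
    (hb : ∀ k i, ∀ x ∈ s, ‖iteratedFDeriv ℝ k (f i) x‖ ≤ v k i) (k : ℕ) {x : E} (hx : x ∈ s) :
    HasFDerivAt (fun y => ∑' i, iteratedFDeriv ℝ k (f i) y)
      (∑' i, fderiv ℝ (iteratedFDeriv ℝ k (f i)) x) x := by
  refine hasFDerivAt_tsum_of_isPreconnected (hv (k + 1)) hs hps (fun i y hy => ?_)
    (fun i y hy => ?_) hx (Summable.of_norm_bounded (hv k) fun i => hb k i x hx) hx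
  · exact ((((hf i).contDiffAt (hs.mem_nhds hy)).differentiableAt_iteratedFDeriv
      (m := k) (WithTop.coe_lt_coe.2 (WithTop.coe_lt_top k)))).hasFDerivAt
  · rw [← norm_iteratedFDeriv_one]
    refine le_trans (le_of_eq ?_) (hb (k + 1) i y hy)
    rw [norm_iteratedFDeriv_one, norm_fderiv_iteratedFDeriv]

/-- Iterated derivatives of the sum. -/
theorem iteratedFDeriv_tsum_of_isOpen (hs : IsOpen s) (hps : IsPreconnected s)
    (hf : ∀ i, ContDiffOn ℝ ∞ (f i) s) (hv : ∀ k, Summable (v k))
    (hb : ∀ k i, ∀ x ∈ s, ‖iteratedFDeriv ℝ k (f i) x‖ ≤ v k i) (k : ℕ) :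
    ∀ x ∈ s, iteratedFDeriv ℝ k (fun y => ∑' i, f i y) x = ∑' i, iteratedFDeriv ℝ k (f i) x := by
  induction k with
  | zero =>
    intro x _
    simp_rw [iteratedFDeriv_zero_eq_comp]
    exact (continuousMultilinearCurryFin0 ℝ E F).symm.toContinuousLinearEquiv.map_tsum
  | succ k ih =>
    intro x hx
    have h : iteratedFDeriv ℝ k (fun y => ∑' i, f i y) =ᶠ[𝓝 x]
        fun y => ∑' i, iteratedFDeriv ℝ k (f i) y :=
      eventually_of_mem (hs.mem_nhds hx) ih
    simp only [iteratedFDeriv_succ_eq_comp_left, Function.comp_apply]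
    rw [h.fderiv_eq, (hasFDerivAt_iterated_tsum hs hps hf hv hb k hx).fderiv]
    exact (continuousMultilinearCurryLeftEquiv ℝ
      (fun _ : Fin (k + 1) => E) F).symm.toContinuousLinearEquiv.map_tsum

/-- A series with summable bounds on every derivative is smooth. -/
theorem contDiffOn_tsum_of_isOpen (hs : IsOpen s) (hps : IsPreconnected s)
    (hf : ∀ i, ContDiffOn ℝ ∞ (f i) s) (hv : ∀ k, Summable (v k))
    (hb : ∀ k i, ∀ x ∈ s, ‖iteratedFDeriv ℝ k (f i) x‖ ≤ v k i) :
    ContDiffOn ℝ ∞ (fun y => ∑' i, f i y) s := by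
  have hd : ∀ k, ∀ x ∈ s, DifferentiableAt ℝ (iteratedFDeriv ℝ k fun y => ∑' i, f i y) x :=
    fun k x hx => ((hasFDerivAt_iterated_tsum hs hps hf hv hb k hx).congr_of_eventuallyEq
      (eventually_of_mem (hs.mem_nhds hx)
        (iteratedFDeriv_tsum_of_isOpen hs hps hf hv hb k))).differentiableAt
  refine contDiffOn_of_differentiableOn fun m _ => ?_
  intro x hx
  exact ((hd m x hx).differentiableWithinAt).congr
    (fun y hy => iteratedFDerivWithin_of_isOpen m hs hy) (iteratedFDerivWithin_of_isOpen m hs hx)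

/-- First derivatives. -/
theorem fderiv_tsum_of_isOpen (hs : IsOpen s) (hps : IsPreconnected s)
    (hf : ∀ i, ContDiffOn ℝ ∞ (f i) s) (hv : ∀ k, Summable (v k))
    (hb : ∀ k i, ∀ x ∈ s, ‖iteratedFDeriv ℝ k (f i) x‖ ≤ v k i) {x : E} (hx : x ∈ s) (w : E) :
    Summable (fun i => fderiv ℝ (f i) x w) ∧
      fderiv ℝ (fun y => ∑' i, f i y) x w = ∑' i, fderiv ℝ (f i) x w := by
  have hsum : Summable fun i => fderiv ℝ (f i) x :=
    .of_norm_bounded (hv 1) fun i => by rw [← norm_iteratedFDeriv_one]; exact hb 1 i x hx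
  refine ⟨(ContinuousLinearMap.apply ℝ F w).summable hsum, ?_⟩
  have h := hasFDerivAt_tsum_of_isPreconnected (hv 1) hs hps
    (fun i y hy => (((hf i).contDiffAt (hs.mem_nhds hy)).differentiableAt (by simp)).hasFDerivAt)
    (fun i y hy => by rw [← norm_iteratedFDeriv_one]; exact hb 1 i y hy) hx
    (Summable.of_norm_bounded (hv 0) fun i => by simpa using hb 0 i x hx) hx
  rw [h.fderiv]
  exact (ContinuousLinearMap.apply ℝ F w).map_tsum hsum

end

end Vale.Agent.P225.Regularity
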