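import Vale.Agent.P225.Geo.Model
import Vale.Agent.P225.Regularity.Coeff
import Vale.Agent.P225.Regularity.Tsum

/-!
# P225, regularity of a sum of modes

A tame solution of the mode equations gives a smooth function on all of `ℝ⁴`, differentiable term
by term away from the origin and a series of harmonic polynomials near it; it is bounded by its
envelope, and independent leading coefficients give independent functions.
-/

open scoped ContDiff Topology RealInnerProductSpace Nat
open Finset Filter Set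

namespace Vale.Agent.P225

open Regularity

noncomputable section

/-- The `j`-th term of `modeSum`. -/
def modeTerm (H : Harm) (j : ℕ) (v : ℝ → V j) (x : R4) : ℝ :=
  H.fn j (v (Real.log ‖x‖)) (rhat x)

variable {H : Harm}

theorem modeSum_eq (u : (j : ℕ) → ℝ → V j) :
    modeSum H u = fun x => ∑' j, modeTerm H j (u j) x := rfl

theorem norm_rhat_le (x : R4) : ‖rhat x‖ ≤ 1 := by
  rw [rhat, norm_smul, norm_inv, norm_norm]
  exact inv_mul_le_one

namespace Harm

variable (H : Harm)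

/-- The values of the basis of degree `j` as a vector. -/
def Yvec (j : ℕ) (x : R4) : V j := WithLp.toLp 2 fun i => H.Y j i x

theorem fn_eq_inner (j : ℕ) (v : V j) (x : R4) : H.fn j v x = ⟪v, H.Yvec j x⟫ := by
  simp [fn, Yvec, PiLp.inner_apply, mul_comm]

theorem contDiff_Yvec (j : ℕ) : ContDiff ℝ ∞ (H.Yvec j) := by
  rw [contDiff_piLp]
  exact fun i => H.smooth j i

theorem fn_smul (j : ℕ) (c : ℝ) (v : V j) (x : R4) : H.fn j (c • v) x = c * H.fn j v x := by
  simp [fn, Finset.mul_sum, mul_assoc]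

theorem fn_homog (j : ℕ) (v : V j) (c : ℝ) (x : R4) :
    H.fn j v (c • x) = c ^ j * H.fn j v x := by
  simp [fn, H.homog, Finset.mul_sum, mul_left_comm]

theorem iteratedFDeriv_fn (n j : ℕ) (w : V j) (x : R4) (m : Fin n → R4) :
    iteratedFDeriv ℝ n (H.fn j w) x m = ⟪w, iteratedFDeriv ℝ n (H.Yvec j) x m⟫ := by
  have h : H.fn j w = innerSL ℝ w ∘ H.Yvec j := funext fun y => H.fn_eq_inner j w y
  rw [h, (innerSL ℝ w).iteratedFDeriv_comp_left (n := (∞ : WithTop ℕ∞))
    (H.contDiff_Yvec j).contDiffAt (WithTop.coe_le_coe.2 le_top)]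
  rfl

/-- The bounds on derivatives of the basis, for the whole vector. -/
theorem Yvec_bound (n : ℕ) : ∃ K : ℝ, 0 ≤ K ∧ ∀ j x, ‖x‖ ≤ 1 →
    ‖iteratedFDeriv ℝ n (H.Yvec j) x‖ ≤ K * H.C ^ j * ((j : ℝ) + 1) ^ n := by
  obtain ⟨K, hK⟩ := H.deriv_bound n
  have hC : 0 ≤ H.C := zero_le_one.trans H.one_le_C
  refine ⟨max K 0, le_max_right _ _, fun j x hx =>
    ContinuousMultilinearMap.opNorm_le_bound (by positivity) fun m => ?_⟩
  set w := iteratedFDeriv ℝ n (H.Yvec j) x m
  have h := ((iteratedFDeriv ℝ n (H.fn j w) x).le_opNorm m).trans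
    (mul_le_mul_of_nonneg_right (hK j w x hx) (Finset.prod_nonneg fun i _ => norm_nonneg (m i)))
  rw [iteratedFDeriv_fn, real_inner_self_eq_norm_sq, Real.norm_eq_abs,
    abs_of_nonneg (by positivity)] at h
  rcases (norm_nonneg w).eq_or_lt with hw | hw
  · rw [← hw]; positivity
  refine le_of_mul_le_mul_left (a := ‖w‖) ?_ hw
  calc ‖w‖ * ‖w‖ = ‖w‖ ^ 2 := (sq _).symm
    _ ≤ K * H.C ^ j * ((j : ℝ) + 1) ^ n * ‖w‖ * ∏ i, ‖m i‖ := h
    _ ≤ max K 0 * H.C ^ j * ((j : ℝ) + 1) ^ n * ‖w‖ * ∏ i, ‖m i‖ := by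
        gcongr; exact le_max_left _ _
    _ = _ := by ring

end Harm

variable {sh : Shape} {P : Pulses} {A : Amps P} {u du : (j : ℕ) → ℝ → V j}
  {W : ℝ} {M : ℝ → ℝ}

theorem Tame.pos (hT : Tame H u du W M) : 0 < W := zero_lt_one.trans hT.one_lt

theorem Tame.ratio_nonneg (hT : Tame H u du W M) : 0 ≤ H.C / W :=
  div_nonneg (zero_le_one.trans H.one_le_C) hT.pos.le

theorem Tame.ratio_lt_one (hT : Tame H u du W M) : H.C / W < 1 :=
  (div_lt_one hT.pos).mpr hT.C_lt

theorem summable_poly_mul_geometric {r : ℝ} (h0 : 0 ≤ r) (h1 : r < 1) (B : ℝ) (p : ℕ) :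
    Summable fun j : ℕ => B * ((j : ℝ) + 1) ^ p * r ^ j := by
  have hs : Summable fun j : ℕ => (j : ℝ) ^ p * r ^ j :=
    summable_pow_mul_geometric_of_norm_lt_one p (by rwa [Real.norm_of_nonneg h0])
  rcases h0.eq_or_lt with h | h
  · subst h
    exact summable_of_ne_finset_zero (s := {0}) fun j hj => by
      simp [zero_pow (fun h : j = 0 => hj (by simp [h]))]
  · refine ((summable_nat_add_iff 1).mpr hs |>.mul_left (B / r)).congr fun j => ?_
    push_cast
    rw [pow_succ r]
    field_simp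

theorem contDiffOn_log_norm : ContDiffOn ℝ ∞ (fun x : R4 => Real.log ‖x‖) {0}ᶜ := fun _ hx =>
  ((contDiffAt_norm ℝ hx).log (norm_ne_zero_iff.mpr hx)).contDiffWithinAt

theorem contDiffOn_rhat : ContDiffOn ℝ ∞ rhat {0}ᶜ := fun _ hx =>
  (((contDiffAt_norm ℝ hx).inv (norm_ne_zero_iff.mpr hx)).smul contDiffAt_id).contDiffWithinAt

theorem exists_deriv_bound {G : Type*} [NormedAddCommGroup G] [NormedSpace ℝ G] {f : R4 → G}
    (hf : ContDiffOn ℝ ∞ f {0}ᶜ) {K : Set R4} (hK : IsCompact K) (h0 : K ⊆ {0}ᶜ) (n : ℕ) :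
    ∃ D : ℝ, 1 ≤ D ∧ ∀ x ∈ K, ∀ i, 1 ≤ i → i ≤ n → ‖iteratedFDeriv ℝ i f x‖ ≤ D ^ i := by
  have hc : ∀ i : ℕ, ContinuousOn (fun x => ‖iteratedFDeriv ℝ i f x‖) {0}ᶜ := fun i =>
    ((hf.continuousOn_iteratedFDerivWithin (m := i) (WithTop.coe_le_coe.2 le_top)
      isOpen_compl_singleton.uniqueDiffOn).congr
        (fun x hx => (iteratedFDerivWithin_of_isOpen i isOpen_compl_singleton hx).symm)).norm
  obtain ⟨B, hB⟩ := hK.bddAbove_image
    ((continuousOn_finsetSum (range (n + 1)) fun i _ => hc i).mono h0)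
  refine ⟨max B 1, le_max_right _ _, fun x hx i hi hin => ?_⟩
  refine ((single_le_sum (f := fun i => ‖iteratedFDeriv ℝ i f x‖) (fun l _ => norm_nonneg _)
    (Finset.mem_range.mpr (Nat.lt_succ_of_le hin))).trans (hB (Set.mem_image_of_mem _ hx))).trans ?_
  exact (le_max_left B 1).trans (le_self_pow₀ (le_max_right _ _) (Nat.one_le_iff_ne_zero.mp hi))

/-- The `j`-th term is smooth away from the origin. -/
theorem contDiffOn_modeTerm (hu : IsModeSolution H sh A u du) (hT : Tame H u du W M) (j : ℕ) :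
    ContDiffOn ℝ ∞ (modeTerm H j (u j)) {0}ᶜ := by
  have h : modeTerm H j (u j) = fun x => ⟪u j (Real.log ‖x‖), H.Yvec j (rhat x)⟫ :=
    funext fun x => H.fn_eq_inner j _ _
  rw [h]
  exact ((contDiff_coeff hu hT j).comp_contDiffOn contDiffOn_log_norm).inner ℝ
    ((H.contDiff_Yvec j).comp_contDiffOn contDiffOn_rhat)

theorem contDiffAt_modeTerm (hu : IsModeSolution H sh A u du) (hT : Tame H u du W M) (j : ℕ)
    {x : R4} (hx : x ≠ 0) : ContDiffAt ℝ ∞ (modeTerm H j (u j)) x :=
  (contDiffOn_modeTerm hu hT j).contDiffAt (isOpen_compl_singleton.mem_nhds hx)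

/-- Summable bounds on the derivatives of the terms, near a point other than the origin. -/
theorem modeTerm_bound (hu : IsModeSolution H sh A u du) (hT : Tame H u du W M) (z : R4)
    (n : ℕ) : ∃ v : ℕ → ℝ, Summable v ∧ ∀ j, ∀ x ∈ Metric.ball z (‖z‖ / 2),
      ‖iteratedFDeriv ℝ n (modeTerm H j (u j)) x‖ ≤ v j := by
  rcases eq_or_ne z 0 with rfl | hz
  · exact ⟨0, summable_zero, fun j x hx => by simp at hx⟩
  set s := Metric.ball z (‖z‖ / 2)
  have hK0 : Metric.closedBall z (‖z‖ / 2) ⊆ ({0}ᶜ : Set R4) := by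
    intro x hx (h : x = 0)
    rw [h, Metric.mem_closedBall, dist_zero_left] at hx
    linarith [norm_pos_iff.mpr hz]
  have hs0 : s ⊆ ({0}ᶜ : Set R4) := Metric.ball_subset_closedBall.trans hK0
  have hcpt := isCompact_closedBall z (‖z‖ / 2)
  obtain ⟨D, hD1, hD⟩ := exists_deriv_bound contDiffOn_log_norm hcpt hK0 n
  obtain ⟨D', hD1', hD'⟩ := exists_deriv_bound contDiffOn_rhat hcpt hK0 n
  obtain ⟨a, ha⟩ := hcpt.bddBelow_image (contDiffOn_log_norm.continuousOn.mono hK0)
  obtain ⟨b, hb⟩ := hcpt.bddAbove_image (contDiffOn_log_norm.continuousOn.mono hK0)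
  obtain ⟨B, p, hB, hBu⟩ := (decay_coeff hu hT n).1.2 a b
  choose K hK hKb using H.Yvec_bound
  set Ks := ∑ i ∈ range (n + 1), K i
  refine ⟨fun j => (∑ i ∈ range (n + 1), (n.choose i : ℝ) * (i ! * B * D ^ i) *
    ((n - i)! * Ks * D' ^ (n - i))) * ((j : ℝ) + 1) ^ (p + n) * (H.C / W) ^ j,
    summable_poly_mul_geometric hT.ratio_nonneg hT.ratio_lt_one _ _, fun j x hx => ?_⟩
  have hxK := Metric.ball_subset_closedBall hx
  have hterm : modeTerm H j (u j) =
      fun x => innerSL ℝ ((u j ∘ fun y : R4 => Real.log ‖y‖) x) ((H.Yvec j ∘ rhat) x) :=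
    funext fun x => H.fn_eq_inner j _ _
  have hso : IsOpen s := Metric.isOpen_ball
  have hn : (n : WithTop ℕ∞) ≤ ∞ := WithTop.coe_le_coe.2 le_top
  have hu' := contDiff_coeff hu hT j
  have hlog := contDiffOn_log_norm.mono hs0
  have hrh := contDiffOn_rhat.mono hs0
  rw [← iteratedFDerivWithin_of_isOpen n hso hx, hterm]
  refine ((innerSL ℝ).norm_iteratedFDerivWithin_le_of_bilinear_of_le_one (N := ∞)
    (hu'.comp_contDiffOn hlog) ((H.contDiff_Yvec j).comp_contDiffOn hrh) hso.uniqueDiffOn hx hn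
    (LinearMap.mkContinuous₂_norm_le _ zero_le_one _)).trans ?_
  beta_reduce
  rw [Finset.sum_mul, Finset.sum_mul]
  refine sum_le_sum fun i hi => ?_
  have hin : i ≤ n := Nat.le_of_lt_succ (Finset.mem_range.mp hi)
  have hC : (0 : ℝ) < H.C := zero_lt_one.trans_le H.one_le_C
  have hW := hT.pos
  have hj1 : (1 : ℝ) ≤ (j : ℝ) + 1 := le_add_of_nonneg_left (Nat.cast_nonneg j)
  have h1 : ‖iteratedFDerivWithin ℝ i (u j ∘ fun y : R4 => Real.log ‖y‖) s x‖ ≤
      i ! * (B * ((j : ℝ) + 1) ^ p / W ^ j) * D ^ i := by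
    refine norm_iteratedFDerivWithin_comp_le hu'.contDiffOn hlog (WithTop.coe_le_coe.2 le_top)
      uniqueDiffOn_univ hso.uniqueDiffOn (Set.mapsTo_univ _ _) hx (fun l hl => ?_)
      (fun l hl1 hl => ?_)
    · rw [iteratedFDerivWithin_univ]
      exact hBu j l (hl.trans hin) _
        ⟨ha (Set.mem_image_of_mem _ hxK), hb (Set.mem_image_of_mem _ hxK)⟩
    · rw [iteratedFDerivWithin_of_isOpen l hso hx]
      exact hD x hxK l hl1 (hl.trans hin)
  have h2 : ‖iteratedFDerivWithin ℝ (n - i) (H.Yvec j ∘ rhat) s x‖ ≤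
      (n - i)! * (Ks * H.C ^ j * ((j : ℝ) + 1) ^ n) * D' ^ (n - i) := by
    refine norm_iteratedFDerivWithin_comp_le (H.contDiff_Yvec j).contDiffOn hrh
      (WithTop.coe_le_coe.2 le_top) uniqueDiffOn_univ hso.uniqueDiffOn (Set.mapsTo_univ _ _) hx
      (fun l hl => ?_) (fun l hl1 hl => ?_)
    · rw [iteratedFDerivWithin_univ]
      refine (hKb l j _ (norm_rhat_le x)).trans ?_
      have hl' : l ≤ n := hl.trans (Nat.sub_le n i)
      have hKs : 0 ≤ Ks := Finset.sum_nonneg fun l _ => hK l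
      gcongr
      exact single_le_sum (fun l _ => hK l) (Finset.mem_range.mpr (Nat.lt_succ_of_le hl'))
    · rw [iteratedFDerivWithin_of_isOpen l hso hx]
      exact hD' x hxK l hl1 (hl.trans (Nat.sub_le n i))
  calc _ ≤ (n.choose i : ℝ) * (i ! * (B * ((j : ℝ) + 1) ^ p / W ^ j) * D ^ i) *
      ((n - i)! * (Ks * H.C ^ j * ((j : ℝ) + 1) ^ n) * D' ^ (n - i)) := by gcongr
    _ = _ := by rw [div_pow, pow_add]; ring

/-- Term by term differentiation near a point other than the origin. -/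
theorem contDiffOn_modeSum_ball (hu : IsModeSolution H sh A u du) (hT : Tame H u du W M)
    (z : R4) : ContDiffOn ℝ ∞ (modeSum H u) (Metric.ball z (‖z‖ / 2)) := by
  choose v hv hb using modeTerm_bound hu hT z
  refine contDiffOn_tsum_of_isOpen Metric.isOpen_ball (convex_ball _ _).isPreconnected
    (fun j => (contDiffOn_modeTerm hu hT j).mono ?_) hv fun k j => hb k j
  intro x hx (h : x = 0)
  rw [h, Metric.mem_ball, dist_zero_left] at hx
  linarith [norm_nonneg z]

theorem modeSum_eq_series (hT : Tame H u du W M) {x : R4} (hx : ‖x‖ ≤ 1) :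
    modeSum H u x = ∑' j, H.fn j (u j 0) x := by
  refine tsum_congr fun j => ?_
  rcases eq_or_ne x 0 with rfl | hx0
  · simp [rhat]
  have hpos := norm_pos_iff.mpr hx0
  rw [hT.start j _ (Real.log_nonpos hpos.le hx), H.fn_smul, Real.exp_nat_mul,
    Real.exp_log hpos, rhat, H.fn_homog, ← mul_assoc, ← mul_pow, mul_inv_cancel₀ hpos.ne',
    one_pow, one_mul]

theorem contDiffOn_modeSum_origin (hT : Tame H u du W M) :
    ContDiffOn ℝ ∞ (modeSum H u) (Metric.ball 0 1) := by
  have hball : ∀ x ∈ Metric.ball (0 : R4) 1, ‖x‖ ≤ 1 := fun x hx => by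
    rw [mem_ball_zero_iff] at hx; exact hx.le
  choose K hK using H.deriv_bound
  refine (contDiffOn_tsum_of_isOpen Metric.isOpen_ball (convex_ball _ _).isPreconnected
    (v := fun (k j : ℕ) => max (K k) 0 * max (M 0) 0 * ((j : ℝ) + 1) ^ k * (H.C / W) ^ j)
    (fun j => (ContDiff.sum fun i _ => contDiff_const.mul (H.smooth j i)).contDiffOn)
    (fun k => summable_poly_mul_geometric hT.ratio_nonneg hT.ratio_lt_one _ _)
    (fun k j x hx => ?_)).congr fun x hx => modeSum_eq_series hT (hball x hx)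
  have hC : (0 : ℝ) < H.C := zero_lt_one.trans_le H.one_le_C
  have hW := hT.pos
  refine (hK k j (u j 0) x (hball x hx)).trans ?_
  have hu0 : ‖u j 0‖ ≤ max (M 0) 0 / W ^ j := by
    rw [le_div_iff₀ (pow_pos hW j)]
    calc ‖u j 0‖ * W ^ j ≤ W ^ j * (‖u j 0‖ + ‖du j 0‖) := by
          rw [mul_comm]; gcongr; exact le_add_of_nonneg_right (norm_nonneg _)
      _ ≤ M 0 := hT.bound j 0
      _ ≤ max (M 0) 0 := le_max_left _ _
  calc K k * H.C ^ j * ((j : ℝ) + 1) ^ k * ‖u j 0‖
      ≤ max (K k) 0 * H.C ^ j * ((j : ℝ) + 1) ^ k * (max (M 0) 0 / W ^ j) := by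
        gcongr
        exact le_max_left _ _
    _ = _ := by rw [div_pow]; ring

/-- A tame sum of modes is smooth. -/
theorem modeSum_contDiff (hu : IsModeSolution H sh A u du) (hT : Tame H u du W M) :
    ContDiff ℝ ∞ (modeSum H u) := contDiff_iff_contDiffAt.mpr fun x => by
  rcases eq_or_ne x 0 with rfl | hx
  · exact (contDiffOn_modeSum_origin hT).contDiffAt (Metric.ball_mem_nhds _ one_pos)
  · exact (contDiffOn_modeSum_ball hu hT x).contDiffAt
      (Metric.ball_mem_nhds _ (by positivity))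

/-- First partial derivatives, term by term. -/
theorem pd_modeSum (hu : IsModeSolution H sh A u du) (hT : Tame H u du W M) {x : R4}
    (hx : x ≠ 0) (a : Fin 4) :
    Summable (fun j => pd a (modeTerm H j (u j)) x) ∧
      pd a (modeSum H u) x = ∑' j, pd a (modeTerm H j (u j)) x := by
  choose v hv hb using modeTerm_bound hu hT x
  refine fderiv_tsum_of_isOpen (s := Metric.ball x (‖x‖ / 2)) Metric.isOpen_ball
    (convex_ball _ _).isPreconnected (fun j => (contDiffOn_modeTerm hu hT j).mono ?_) hv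
    (fun k j => hb k j) (Metric.mem_ball_self (by positivity)) _
  intro y hy (h : y = 0)
  rw [h, Metric.mem_ball, dist_zero_left] at hy
  linarith [norm_nonneg x]

/-- Second partial derivatives, term by term. -/
theorem pd_pd_modeSum (hu : IsModeSolution H sh A u du) (hT : Tame H u du W M) {x : R4}
    (hx : x ≠ 0) (a b : Fin 4) :
    Summable (fun j => pd b (pd a (modeTerm H j (u j))) x) ∧
      pd b (pd a (modeSum H u)) x = ∑' j, pd b (pd a (modeTerm H j (u j))) x := by
  choose v hv hb using modeTerm_bound hu hT x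
  have hne : ∀ y ∈ Metric.ball x (‖x‖ / 2), y ≠ 0 := by
    intro y hy h
    rw [h, Metric.mem_ball, dist_zero_left] at hy
    linarith [norm_nonneg x]
  have hpd : ∀ j, ∀ y : R4, y ≠ 0 → ContDiffAt ℝ ∞ (pd a (modeTerm H j (u j))) y := fun j y hy =>
    ((contDiffAt_modeTerm hu hT j hy).fderiv_right (m := ∞) le_rfl).clm_apply contDiffAt_const
  have h := fderiv_tsum_of_isOpen (f := fun j => pd a (modeTerm H j (u j)))
    (s := Metric.ball x (‖x‖ / 2)) (v := fun k => v (k + 1)) Metric.isOpen_ball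
    (convex_ball _ _).isPreconnected (fun j y hy => (hpd j y (hne y hy)).contDiffWithinAt)
    (fun k => hv (k + 1)) (fun k j y hy => ?_) (Metric.mem_ball_self (by positivity))
    (EuclideanSpace.single b (1 : ℝ))
  · refine ⟨h.1, ?_⟩
    have he : pd a (modeSum H u) =ᶠ[𝓝 x] fun y => ∑' j, pd a (modeTerm H j (u j)) y :=
      eventually_of_mem (isOpen_compl_singleton.mem_nhds hx)
        fun y hy => (pd_modeSum hu hT hy a).2
    rw [pd, he.fderiv_eq]
    exact h.2
  · refine le_trans ?_ (hb (k + 1) j y hy)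
    refine (norm_iteratedFDeriv_clm_apply_const (N := ∞)
      ((contDiffAt_modeTerm hu hT j (hne y hy)).fderiv_right (m := ∞) le_rfl)
      (WithTop.coe_le_coe.2 le_top)).trans ?_
    rw [norm_iteratedFDeriv_fderiv]
    simp

theorem summable_modeTerm (hT : Tame H u du W M) (x : R4) :
    Summable fun j => modeTerm H j (u j) x := by
  refine Summable.of_norm_bounded
    ((summable_geometric_of_lt_one hT.ratio_nonneg hT.ratio_lt_one).mul_left
      (M (Real.log ‖x‖))) fun j => ?_
  have hC : (0 : ℝ) < H.C := zero_lt_one.trans_le H.one_le_C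
  have hW := hT.pos
  rw [Real.norm_eq_abs, modeTerm, Harm.fn, div_pow, mul_div_assoc', le_div_iff₀ (pow_pos hW j)]
  calc _ ≤ H.C ^ j * ‖u j (Real.log ‖x‖)‖ * ‖rhat x‖ ^ j * W ^ j := by
        gcongr; exact H.bound j _ _
    _ ≤ H.C ^ j * ‖u j (Real.log ‖x‖)‖ * 1 * W ^ j := by
        gcongr; exact pow_le_one₀ (norm_nonneg _) (norm_rhat_le x)
    _ ≤ H.C ^ j * (W ^ j * (‖u j (Real.log ‖x‖)‖ + ‖du j (Real.log ‖x‖)‖)) := by
        rw [mul_one, mul_assoc, mul_comm (‖u j _‖)]
        gcongr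
        exact le_add_of_nonneg_right (norm_nonneg _)
    _ ≤ H.C ^ j * M (Real.log ‖x‖) := by gcongr; exact hT.bound j _
    _ = _ := mul_comm _ _

/-- The sum is bounded by the envelope. -/
theorem abs_modeSum_le (hT : Tame H u du W M) (x : R4) :
    |modeSum H u x| ≤ (1 - H.C / W)⁻¹ * M (Real.log ‖x‖) := by
  have hC : (0 : ℝ) < H.C := zero_lt_one.trans_le H.one_le_C
  have hW := hT.pos
  set t := Real.log ‖x‖
  have hs := (hasSum_geometric_of_lt_one hT.ratio_nonneg hT.ratio_lt_one).mul_left (M t)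
  rw [← Real.norm_eq_abs, modeSum, mul_comm]
  refine tsum_of_norm_bounded hs fun j => ?_
  rw [Real.norm_eq_abs, Harm.fn, div_pow, mul_div_assoc', le_div_iff₀ (pow_pos hW j)]
  calc _ ≤ H.C ^ j * ‖u j t‖ * ‖rhat x‖ ^ j * W ^ j := by gcongr; exact H.bound j _ _
    _ ≤ H.C ^ j * ‖u j t‖ * 1 * W ^ j := by
        gcongr; exact pow_le_one₀ (norm_nonneg _) (norm_rhat_le x)
    _ ≤ H.C ^ j * (W ^ j * (‖u j t‖ + ‖du j t‖)) := by
        rw [mul_one, mul_assoc, mul_comm (‖u j _‖)]
        gcongr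
        exact le_add_of_nonneg_right (norm_nonneg _)
    _ ≤ H.C ^ j * M t := by gcongr; exact hT.bound j _
    _ = _ := mul_comm _ _

theorem eq_zero_of_series {a : ℕ → ℝ} {B q : ℝ} (hq0 : 0 ≤ q) (hq : q < 1)
    (ha : ∀ j, |a j| ≤ B * q ^ j) (h : ∀ r : ℝ, 0 < r → r < 1 → ∑' j, r ^ j * a j = 0) :
    ∀ j, a j = 0 := by
  have hsum : ∀ n, ∀ r ∈ Icc (0 : ℝ) 1, ∀ j, ‖r ^ j * a (j + n)‖ ≤ B * q ^ (j + n) := by
    intro n r hr j
    rw [norm_mul, norm_pow, Real.norm_of_nonneg hr.1]
    exact (mul_le_of_le_one_left (norm_nonneg _) (pow_le_one₀ hr.1 hr.2)).trans (ha _)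
  have hgeo : ∀ n, Summable fun j : ℕ => B * q ^ (j + n) := fun n =>
    (summable_nat_add_iff n).mpr ((summable_geometric_of_lt_one hq0 hq).mul_left B)
  suffices key : ∀ n, (∀ i < n, a i = 0) ∧
      ∀ r : ℝ, 0 < r → r < 1 → ∑' j, r ^ j * a (j + n) = 0 from
    fun j => (key (j + 1)).1 j (Nat.lt_succ_self j)
  intro n
  induction n with
  | zero => exact ⟨fun i hi => absurd hi (Nat.not_lt_zero i), h⟩
  | succ n ih =>
    obtain ⟨ih1, ih2⟩ := ih
    have hcont : ContinuousOn (fun r : ℝ => ∑' j, r ^ j * a (j + n)) (Icc 0 1) :=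
      continuousOn_tsum (fun j => (continuous_pow j).continuousOn.mul continuousOn_const)
        (hgeo n) fun j r hr => hsum n r hr j
    have hev : (fun r : ℝ => ∑' j, r ^ j * a (j + n)) 0 = 0 := by
      have hlim := (hcont 0 ⟨le_rfl, zero_le_one⟩).mono (Ioo_subset_Icc_self (a := 0) (b := 1))
      have : (𝓝[Ioo (0 : ℝ) 1] 0).NeBot := left_nhdsWithin_Ioo_neBot zero_lt_one
      exact tendsto_nhds_unique hlim (tendsto_const_nhds.congr' (eventually_of_mem
        self_mem_nhdsWithin fun r hr => (ih2 r hr.1 hr.2).symm))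
    have han : a n = 0 := by
      have : (fun r : ℝ => ∑' j, r ^ j * a (j + n)) 0 = a n := by
        beta_reduce
        rw [tsum_eq_single 0 (fun j hj => by rw [zero_pow hj, zero_mul]), pow_zero, one_mul,
          Nat.zero_add]
      rw [← this, hev]
    refine ⟨fun i hi => ?_, fun r hr0 hr1 => ?_⟩
    · rcases Nat.lt_succ_iff_lt_or_eq.mp hi with h | rfl
      exacts [ih1 i h, han]
    · have hs : Summable fun j => r ^ j * a (j + n) :=
        .of_norm_bounded (hgeo n) fun j => hsum n r ⟨hr0.le, hr1.le⟩ j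
      have h' := ih2 r hr0 hr1
      rw [hs.tsum_eq_zero_add, pow_zero, one_mul, Nat.zero_add, han, zero_add] at h'
      simp only [pow_succ', mul_assoc, tsum_mul_left] at h'
      have := (mul_eq_zero.mp h').resolve_left hr0.ne'
      simpa [Nat.add_assoc, Nat.add_comm 1] using this

/-- Independent values at time zero give independent functions. -/
theorem modeSum_linearIndependent {ι : Type*} [Fintype ι] (us dus : ι → (j : ℕ) → ℝ → V j)
    (Ms : ι → ℝ → ℝ) (hT : ∀ a, Tame H (us a) (dus a) W (Ms a))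
    (hv : ∀ c : ι → ℝ, (∀ j, ∑ a, c a • us a j 0 = 0) → c = 0) :
    LinearIndependent ℝ fun a => modeSum H (us a) := by
  rw [Fintype.linearIndependent_iff]
  intro c hc a
  rcases isEmpty_or_nonempty ι with hι | ⟨⟨a₀⟩⟩
  · exact hι.elim a
  suffices h : ∀ j, ∑ a, c a • us a j 0 = 0 from congrFun (hv c h) a
  intro j
  have hC : (0 : ℝ) < H.C := zero_lt_one.trans_le H.one_le_C
  have hW := (hT a₀).pos
  have hw : ∀ j, ‖∑ a, c a • us a j 0‖ ≤ (∑ a, |c a| * Ms a 0) / W ^ j := by
    intro j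
    rw [le_div_iff₀ (pow_pos hW j), mul_comm]
    refine (mul_le_mul_of_nonneg_left (norm_sum_le _ _) (pow_nonneg hW.le j)).trans ?_
    rw [Finset.mul_sum]
    refine sum_le_sum fun a _ => ?_
    rw [norm_smul, Real.norm_eq_abs, mul_left_comm]
    gcongr
    exact (mul_le_mul_of_nonneg_left (le_add_of_nonneg_right (norm_nonneg _))
      (pow_nonneg hW.le j)).trans ((hT a).bound j 0)
  have hsphere : ∀ y : R4, ‖y‖ = 1 → H.fn j (∑ a, c a • us a j 0) y = 0 := by
    intro y hy
    refine eq_zero_of_series (a := fun j => H.fn j (∑ a, c a • us a j 0) y)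
      (B := ∑ a, |c a| * Ms a 0) (hT a₀).ratio_nonneg (hT a₀).ratio_lt_one (fun i => ?_)
      (fun r hr0 hr1 => ?_) j
    · refine (H.bound i _ _).trans ?_
      rw [hy, one_pow, mul_one, div_pow, mul_div_assoc', mul_comm (∑ a, _), ← mul_div_assoc']
      exact mul_le_mul_of_nonneg_left (hw i) (by positivity)
    · have hx : ‖r • y‖ ≤ 1 := by
        rw [norm_smul, hy, mul_one, Real.norm_of_nonneg hr0.le]; exact hr1.le
      have h0 := congrFun hc (r • y)
      rw [Finset.sum_apply] at h0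
      simp only [Pi.smul_apply, smul_eq_mul, Pi.zero_apply] at h0
      refine Eq.trans ?_ h0
      have hsum : ∀ a, Summable fun i => c a * modeTerm H i (us a i) (r • y) := fun a =>
        (summable_modeTerm (hT a) _).mul_left _
      calc ∑' i, r ^ i * H.fn i (∑ a, c a • us a i 0) y
          = ∑' i, ∑ a, c a * modeTerm H i (us a i) (r • y) := by
            refine tsum_congr fun i => ?_
            rw [← H.fn_homog]
            have hterm : ∀ a, modeTerm H i (us a i) (r • y) = H.fn i (us a i 0) (r • y) := by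
              intro a
              have hpos : 0 < ‖r • y‖ := by
                rw [norm_smul, hy, mul_one, Real.norm_of_nonneg hr0.le]; exact hr0
              rw [modeTerm, (hT a).start i _ (Real.log_nonpos hpos.le hx), H.fn_smul,
                Real.exp_nat_mul, Real.exp_log hpos, rhat, H.fn_homog, ← mul_assoc, ← mul_pow,
                mul_inv_cancel₀ hpos.ne', one_pow, one_mul]
            simp only [hterm, H.fn_eq_inner, sum_inner, inner_smul_left, RCLike.conj_to_real]
        _ = ∑ a, c a * modeSum H (us a) (r • y) := by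
            rw [Summable.tsum_finsetSum fun a _ => hsum a]
            exact sum_congr rfl fun a _ => by rw [tsum_mul_left]; rfl
  set w : (i : ℕ) → V i :=
    fun i => if i = j then ∑ a, c a • us a i 0 else 0
  have hind := H.indep (j + 1) w (fun y hy => ?_) j (Nat.lt_succ_self j)
  · simpa [w] using hind
  · rw [Finset.sum_eq_single j (fun i _ hi => by simp [w, hi]) (by simp)]
    simpa [w, Harm.fn] using hsphere y hy

end

end Vale.Agent.P225
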