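import Vale.Agent.P225.Core

/-!
# P225, families of curves in the coefficient spaces with decay in the degree

`Decay W n F`: every `F j` is `C^n` and, on compact intervals, its derivatives up to order `n` are
`O((j+1)^p W^{-j})`. The class is closed under the operations of the mode equation.
-/

open scoped ContDiff Topology
open Finset Filter Set

namespace Vale.Agent.P225.Regularity

noncomputable section

/-- Smooth families with geometric decay in the degree, locally uniformly. -/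
def Decay (W : ℝ) (n : ℕ) (F : (j : ℕ) → ℝ → V j) : Prop :=
  (∀ j, ContDiff ℝ n (F j)) ∧ ∀ a b : ℝ, ∃ B : ℝ, ∃ p : ℕ, 0 ≤ B ∧
    ∀ j : ℕ, ∀ k ≤ n, ∀ t ∈ Icc a b,
      ‖iteratedFDeriv ℝ k (F j) t‖ ≤ B * ((j : ℝ) + 1) ^ p / W ^ j

variable {W : ℝ} {n : ℕ} {F G : (j : ℕ) → ℝ → V j}

theorem Decay.of_le {m : ℕ} (h : Decay W n F) (hm : m ≤ n) : Decay W m F := by
  refine ⟨fun j => (h.1 j).of_le (by exact_mod_cast hm), fun a b => ?_⟩
  obtain ⟨B, p, hB, hb⟩ := h.2 a b
  exact ⟨B, p, hB, fun j k hk => hb j k (hk.trans hm)⟩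

theorem decay_zero (_hW : 0 < W) : Decay W n (fun _ _ => 0) := by
  refine ⟨fun j => contDiff_const, fun a b => ⟨0, 0, le_rfl, fun j k _ t _ => ?_⟩⟩
  simp [show (fun _ : ℝ => (0 : V j)) = 0 from rfl]

theorem Decay.add (hW : 0 < W) (hF : Decay W n F) (hG : Decay W n G) :
    Decay W n (fun j t => F j t + G j t) := by
  refine ⟨fun j => (hF.1 j).add (hG.1 j), fun a b => ?_⟩
  obtain ⟨B, p, hB, hb⟩ := hF.2 a b
  obtain ⟨B', p', hB', hb'⟩ := hG.2 a b
  refine ⟨B + B', max p p', add_nonneg hB hB', fun j k hk t ht => ?_⟩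
  have hj : (1 : ℝ) ≤ (j : ℝ) + 1 := le_add_of_nonneg_left (Nat.cast_nonneg j)
  rw [fun_iteratedFDeriv_add_apply ((hF.1 j).of_le (by exact_mod_cast hk)).contDiffAt
    ((hG.1 j).of_le (by exact_mod_cast hk)).contDiffAt]
  refine (norm_add_le _ _).trans ((add_le_add (hb j k hk t ht) (hb' j k hk t ht)).trans ?_)
  rw [← add_div, add_mul]
  gcongr
  · exact le_max_left _ _
  · exact le_max_right _ _

theorem decay_sum (hW : 0 < W) {ι : Type*} (s : Finset ι) (Fs : ι → (j : ℕ) → ℝ → V j)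
    (h : ∀ i ∈ s, Decay W n (Fs i)) : Decay W n (fun j t => ∑ i ∈ s, Fs i j t) := by
  classical
  induction s using Finset.induction with
  | empty => simpa using decay_zero hW
  | insert i s his ih =>
    simp only [sum_insert his]
    exact (h i (mem_insert_self i s)).add hW (ih fun l hl => h l (mem_insert_of_mem hl))

theorem Decay.smul (hW : 0 < W) {c : ℝ → ℝ} (hc : ContDiff ℝ n c) (hF : Decay W n F) :
    Decay W n (fun j t => c t • F j t) := by
  refine ⟨fun j => hc.smul (hF.1 j), fun a b => ?_⟩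
  obtain ⟨B, p, hB, hb⟩ := hF.2 a b
  have hcont : ∀ i : Fin (n + 1), Continuous fun t => ‖iteratedFDeriv ℝ (i : ℕ) c t‖ := fun i =>
    (hc.continuous_iteratedFDeriv (by exact_mod_cast Nat.le_of_lt_succ i.2)).norm
  obtain ⟨Bc, hBc⟩ := (isCompact_Icc (a := a) (b := b)).bddAbove_image
    (continuous_finsetSum Finset.univ fun i _ => hcont i).continuousOn
  refine ⟨2 ^ n * max Bc 0 * B, p, by positivity, fun j k hk t ht => ?_⟩
  have hci : ∀ i, i ≤ n → ‖iteratedFDeriv ℝ i c t‖ ≤ max Bc 0 := by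
    intro i hi
    refine le_trans ?_ (le_max_left _ _)
    refine le_trans ?_ (hBc (Set.mem_image_of_mem _ ht))
    exact single_le_sum (f := fun l : Fin (n + 1) => ‖iteratedFDeriv ℝ (l : ℕ) c t‖)
      (fun l _ => norm_nonneg _) (Finset.mem_univ (⟨i, Nat.lt_succ_of_le hi⟩ : Fin (n + 1)))
  refine (norm_iteratedFDeriv_smul_le hc (hF.1 j) t (by exact_mod_cast hk)).trans ?_
  calc ∑ i ∈ range (k + 1), (k.choose i : ℝ) * ‖iteratedFDeriv ℝ i c t‖ *
        ‖iteratedFDeriv ℝ (k - i) (F j) t‖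
      ≤ ∑ i ∈ range (k + 1), (k.choose i : ℝ) * (max Bc 0 * (B * ((j : ℝ) + 1) ^ p / W ^ j)) := by
        refine sum_le_sum fun i hi => ?_
        rw [mul_assoc]
        have hi' : i ≤ k := Nat.le_of_lt_succ (mem_range.mp hi)
        gcongr
        · exact hci i (hi'.trans hk)
        · exact hb j (k - i) ((Nat.sub_le k i).trans hk) t ht
    _ = 2 ^ k * (max Bc 0 * (B * ((j : ℝ) + 1) ^ p / W ^ j)) := by
        rw [← sum_mul, ← Nat.cast_sum, Nat.sum_range_choose]; norm_num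
    _ ≤ 2 ^ n * (max Bc 0 * (B * ((j : ℝ) + 1) ^ p / W ^ j)) := by
        gcongr
        norm_num
    _ = _ := by ring

/-- Composition with operators of polynomial size in the degree. -/
theorem Decay.op (_hW : 0 < W) (L : (j : ℕ) → Op j j) {K : ℝ} {q : ℕ}
    (hL : ∀ j : ℕ, ‖L j‖ ≤ K * ((j : ℝ) + 1) ^ q) (hF : Decay W n F) :
    Decay W n (fun j t => L j (F j t)) := by
  refine ⟨fun j => (L j).contDiff.comp (hF.1 j), fun a b => ?_⟩
  obtain ⟨B, p, hB, hb⟩ := hF.2 a b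
  have hK : 0 ≤ K := by simpa using (norm_nonneg (L 0)).trans (hL 0)
  refine ⟨K * B, q + p, mul_nonneg hK hB, fun j k hk t ht => ?_⟩
  refine ((L j).norm_iteratedFDeriv_comp_left (hF.1 j).contDiffAt (by exact_mod_cast hk)).trans ?_
  calc ‖L j‖ * ‖iteratedFDeriv ℝ k (F j) t‖
      ≤ K * ((j : ℝ) + 1) ^ q * (B * ((j : ℝ) + 1) ^ p / W ^ j) := by
        gcongr
        exacts [hL j, hb j k hk t ht]
    _ = _ := by rw [pow_add]; ring

/-- Composition with operators of finite band and polynomial size. -/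
theorem Decay.band (hW : 1 ≤ W) (d : ℕ) (T : (i j : ℕ) → Op i j)
    (hT : ∀ i j, j + d < i ∨ i + d < j → T i j = 0) {K : ℝ} {q : ℕ}
    (hTn : ∀ i j : ℕ, ‖T i j‖ ≤ K * ((i : ℝ) + 1) ^ q) (hF : Decay W n F) :
    Decay W n (fun j t => ∑ i ∈ range (j + d + 1), T i j (F i t)) := by
  refine ⟨fun j => ContDiff.sum fun i _ => (T i j).contDiff.comp (hF.1 i), fun a b => ?_⟩
  obtain ⟨B, p, hB, hb⟩ := hF.2 a b
  have hK : 0 ≤ K := by simpa using (norm_nonneg (T 0 0)).trans (hTn 0 0)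
  refine ⟨((d : ℝ) + 1) ^ (q + p + 1) * K * B * W ^ d, q + p + 1, by positivity,
    fun j k hk t ht => ?_⟩
  rw [iteratedFDeriv_sum (f := fun i t => T i j (F i t)) fun i _ =>
    (T i j).contDiff.comp ((hF.1 i).of_le (by exact_mod_cast hk)), Finset.sum_apply]
  refine (norm_sum_le _ _).trans ?_
  have hterm : ∀ i ∈ range (j + d + 1), ‖iteratedFDeriv ℝ k (fun t => T i j (F i t)) t‖ ≤
      ((d : ℝ) + 1) ^ (q + p) * K * B * W ^ d * ((j : ℝ) + 1) ^ (q + p) / W ^ j := by
    intro i _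
    refine ((T i j).norm_iteratedFDeriv_comp_left (hF.1 i).contDiffAt
      (by exact_mod_cast hk)).trans ?_
    by_cases hband : j + d < i ∨ i + d < j
    · rw [hT i j hband, norm_zero, zero_mul]; positivity
    push Not at hband
    have hij : (i : ℝ) + 1 ≤ ((d : ℝ) + 1) * ((j : ℝ) + 1) := by
      have : (i : ℝ) ≤ (j : ℝ) + d := by exact_mod_cast hband.1
      nlinarith [Nat.cast_nonneg (α := ℝ) j, Nat.cast_nonneg (α := ℝ) d]
    have hpow : W ^ j ≤ W ^ d * W ^ i := by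
      rw [← pow_add]; exact pow_le_pow_right₀ hW (by omega)
    calc ‖T i j‖ * ‖iteratedFDeriv ℝ k (F i) t‖
        ≤ K * ((i : ℝ) + 1) ^ q * (B * ((i : ℝ) + 1) ^ p / W ^ i) := by
          gcongr
          exacts [hTn i j, hb i k hk t ht]
      _ = K * B * ((i : ℝ) + 1) ^ (q + p) * W ^ d / (W ^ d * W ^ i) := by
          rw [pow_add]; field_simp
      _ ≤ K * B * (((d : ℝ) + 1) * ((j : ℝ) + 1)) ^ (q + p) * W ^ d / W ^ j := by gcongr
      _ = _ := by rw [mul_pow]; ring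
  refine (sum_le_card_nsmul _ _ _ hterm).trans ?_
  rw [card_range, nsmul_eq_mul, mul_div_assoc']
  gcongr ?_ / W ^ j
  calc ((j + d + 1 : ℕ) : ℝ) *
        (((d : ℝ) + 1) ^ (q + p) * K * B * W ^ d * ((j : ℝ) + 1) ^ (q + p))
      ≤ (((d : ℝ) + 1) * ((j : ℝ) + 1)) *
        (((d : ℝ) + 1) ^ (q + p) * K * B * W ^ d * ((j : ℝ) + 1) ^ (q + p)) := by
        gcongr
        push_cast
        nlinarith [Nat.cast_nonneg (α := ℝ) j, Nat.cast_nonneg (α := ℝ) d]
    _ = _ := by ring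

/-- The class is local in time. -/
theorem decay_of_local (h : ∀ a b : ℝ, ∃ G : (j : ℕ) → ℝ → V j, Decay W n G ∧
    ∀ j, ∀ t ∈ Ioo (a - 1) (b + 1), F j t = G j t) : Decay W n F := by
  refine ⟨fun j => contDiff_iff_contDiffAt.mpr fun t => ?_, fun a b => ?_⟩
  · obtain ⟨G, hG, heq⟩ := h t t
    exact (hG.1 j).contDiffAt.congr_of_eventuallyEq
      (eventually_of_mem (Ioo_mem_nhds (by linarith) (by linarith)) (heq j))
  · obtain ⟨G, hG, heq⟩ := h a b
    obtain ⟨B, p, hB, hb⟩ := hG.2 a b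
    refine ⟨B, p, hB, fun j k hk t ht => ?_⟩
    have he : F j =ᶠ[𝓝 t] G j := eventually_of_mem
      (Ioo_mem_nhds (by linarith [ht.1]) (by linarith [ht.2])) (heq j)
    rw [he.iteratedFDeriv ℝ k |>.eq_of_nhds]
    exact hb j k hk t ht

/-- Integrating once. -/
theorem decay_succ {D : (j : ℕ) → ℝ → V j} (hW : 0 < W)
    (hd : ∀ j t, HasDerivAt (F j) (D j t) t) (hF : Decay W 0 F) (hD : Decay W n D) :
    Decay W (n + 1) F := by
  have hderiv : ∀ j, deriv (F j) = D j := fun j => funext fun t => (hd j t).deriv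
  refine ⟨fun j => ?_, fun a b => ?_⟩
  · rw [show ((n + 1 : ℕ) : WithTop ℕ∞) = (n : WithTop ℕ∞) + 1 by norm_cast,
      contDiff_succ_iff_deriv]
    exact ⟨fun t => (hd j t).differentiableAt, fun h => absurd h (by simp), hderiv j ▸ hD.1 j⟩
  · obtain ⟨B, p, hB, hb⟩ := hF.2 a b
    obtain ⟨B', p', hB', hb'⟩ := hD.2 a b
    refine ⟨B + B', max p p', add_nonneg hB hB', fun j k hk t ht => ?_⟩
    have hj : (1 : ℝ) ≤ (j : ℝ) + 1 := le_add_of_nonneg_left (Nat.cast_nonneg j)
    have hW' : (0 : ℝ) < W ^ j := pow_pos hW j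
    cases k with
    | zero =>
      refine (hb j 0 le_rfl t ht).trans ?_
      gcongr
      · linarith
      · exact le_max_left _ _
    | succ k =>
      rw [norm_iteratedFDeriv_eq_norm_iteratedDeriv, iteratedDeriv_succ', hderiv,
        ← norm_iteratedFDeriv_eq_norm_iteratedDeriv]
      refine (hb' j k (Nat.le_of_succ_le_succ hk) t ht).trans ?_
      gcongr
      · linarith
      · exact le_max_right _ _

end

end Vale.Agent.P225.Regularity
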